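import Vale.Agent.P336C.Main

namespace Vale.Agent.Results.P336.Constant

open Vale.Agent.P336C

theorem result : ∃ (L : List Bool → Bool)
    (M : Turing.TM2ComputableInPolyTime id id (fun w : List Bool => [L w])),
    (∀ k, Finite (M.tm.Γ k)) ∧ ∃ c : ℝ, Real.pi / Real.sqrt 6 < c ∧ ∃ N : ℕ, ∀ n : ℕ, N ≤ n →
      ∀ C : Circuit n, (∀ x : Fin n → Bool, C.Accepts x ↔ L (List.ofFn x) = true) →
        (2 : ℝ) ^ (c * Real.sqrt n) ≤ C.size := main

end Vale.Agent.Results.P336.Constant
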