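import Vale.Agent.P336.Main

/-!
An explicit language that needs depth-three circuits of size `2 ^ (c * √(n * log n))`.
-/

namespace Vale.Agent.Results.P336.SqrtLog

open Vale.Agent.P336

theorem result : ∃ L : Set (List Bool), InP L ∧
    (∃ c : ℝ, 0 < c ∧ ∃ n₀ : ℕ, ∀ n ≥ n₀, ∀ C : Circuit n,
      (∀ x, C.Accepts x ↔ List.ofFn x ∈ L) →
        (2 : ℝ) ^ (c * √((n : ℝ) * Real.log n)) ≤ C.size) ∧
    ∀ A : ℝ, ∃ n₀ : ℕ, ∀ n ≥ n₀, ∀ C : Circuit n,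
      (∀ x, C.Accepts x ↔ List.ofFn x ∈ L) → (2 : ℝ) ^ (A * √(n : ℝ)) ≤ C.size :=
  main

end Vale.Agent.Results.P336.SqrtLog
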